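import Crest.Agent.R52.Defs

/-!
Statements of the tasks for result 52 (never import this file).
-/

set_option autoImplicit false

open Finset

namespace Crest.Agent.R52.Skel

open Crest.CombinatoricsR.RandomGraph Crest.Agent.R52

/-- Task `Layer.lean`: one-layer matching lemma. -/
theorem layer {A B Y : Type} [Fintype A] [DecidableEq A] [Fintype B] [DecidableEq B]
    [Fintype Y] [DecidableEq Y] (N : A → Finset B) (D : ℕ) (hD : ∀ a, (N a).card ≤ D)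
    (σ : ℝ) (hσ0 : 0 < σ) (hσ1 : σ ≤ 1) (hA : 128 * Fintype.card A ≤ Fintype.card Y)
    (hspread : ∀ S : Finset B, S.Nonempty →
      ((Finset.univ.filter (fun a => S ⊆ N a)).card : ℝ) ≤ Fintype.card Y * (σ / 256) ^ S.card)
    (hε : (Fintype.card A : ℝ) * 2 ^ D * Real.exp (-(Fintype.card Y * σ ^ D / 8)) ≤ 1) :
    Ex (bw (1 / 2)) (fun s : A × B → Bool =>
      Pr (bw (1 - (1 - σ) ^ 2)) (fun R : Y × B → Bool =>
        ¬ ∃ φ : A → Y, Function.Injective φ ∧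
          ∀ a, ∀ b ∈ N a, s (a, b) = true → R (φ a, b) = true)) ≤
      4 * ((Fintype.card A : ℝ) * 2 ^ D * Real.exp (-(Fintype.card Y * σ ^ D / 8))) := by
  sorry

/-- Task `Multilayer.lean`: layer-by-layer embedding. -/
theorem multilayer {n : ℕ} (N : Fin n → Finset (Fin n)) (V : Finset (Fin n))
    (hV : ∀ a, ∀ b ∈ N a, a ∈ V ∧ b ∈ V) (ℓ : Fin n → ℕ) (χ : ℕ) (hχ : ∀ a ∈ V, ℓ a < χ)
    (hℓ : ∀ a, ∀ b ∈ N a, ℓ b < ℓ a) (D : ℕ) (hD : ∀ a, (N a).card ≤ D) (m : ℕ)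
    (hm : 128 * V.card + χ * m ≤ n) (σ : ℝ) (hσ0 : 0 < σ) (hσ1 : σ ≤ 1)
    (hspread : ∀ S : Finset (Fin n), S.Nonempty →
      ((Finset.univ.filter (fun a => S ⊆ N a)).card : ℝ) ≤ m * (σ / 256) ^ S.card)
    (hε : (n : ℝ) * 2 ^ D * Real.exp (-(m * σ ^ D / 8)) ≤ 1) :
    failAvg (1 - (1 - σ) ^ 2) N ≤ χ * (4 * ((n : ℝ) * 2 ^ D * Real.exp (-(m * σ ^ D / 8)))) := by
  sorry

/-- Task `StarForest.lean`: signed second moment for star forests. -/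
theorem star_forest {n : ℕ} (N : Fin n → Finset (Fin n)) (h1 : ∀ a, (N a).card ≤ 1)
    (hstar : ∀ a, ∀ b ∈ N a, N b = ∅) (E : Finset (EdgeSlot n))
    (hE : ∀ a, ∀ b ∈ N a, ∃ h : a ≠ b, slot a b h ∈ E) (r ρ : ℝ) (hr : 0 ≤ r) (hρ0 : 0 < ρ)
    (hρ1 : ρ ≤ 1) (hrρ : 32 * r ≤ ρ)
    (hspread : ∀ T : Finset (EdgeSlot n), T.Nonempty →
      ((Finset.univ.filter (fun π : Equiv.Perm (Fin n) => ∀ e ∈ T, act π e ∈ E)).card : ℝ) ≤
        n.factorial * r ^ T.card) :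
    failAvg ρ N ≤ 1 / 4 := by
  sorry

end Crest.Agent.R52.Skel
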